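import Vale.Agent.P174.Degree.Quotient

/-!
Howie's question on systems of equations for groups built from quotients of products of unitary
groups by extensions with locally indicable quotient.
-/

namespace Vale.Agent.Results.P174.HyperlinearByIndicable

open Vale.Agent.P174.Howie Vale.Agent.P174.Degree

/-- Solvability of all nonsingular systems for groups whose finitely generated subgroups map onto
`ℤ`, or embed in a quotient of a product of unitary groups, or have solvable systems; extensions of
such groups, of residually finite, hyperlinear or abelian groups, by locally indicable quotients. -/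
theorem result :
    (∀ (G : Type) [Group G],
      (∀ L : Subgroup G, L.FG →
        (∃ φ : L →* Multiplicative ℤ, φ ≠ 1) ∨ EmbedsInUnitaryQuotient L ∨ HowieSolvable L) →
        HowieSolvable G) ∧
    (∀ (G : Type) [Group G] (N : Subgroup G) [N.Normal],
      (EmbedsInUnitaryQuotient N ∨ Hyperlinear N ∨ ResiduallyFiniteGroup N ∨
        (∀ a ∈ N, ∀ b ∈ N, a * b = b * a) ∨ HowieSolvable N) →
      LocallyIndicable (G ⧸ N) → HowieSolvable G) := by
  refine ⟨fun G _ H => howieSolvable_of_local fun L hL => (H L hL).imp id fun h =>
    h.elim howieSolvable_of_unitaryQuotient id, fun G _ N _ hN hQ => howieSolvable_extension N ?_ hQ⟩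
  rcases hN with h | h | h | h | h
  · exact howieSolvable_of_unitaryQuotient h
  · exact howieSolvable_of_unitaryQuotient (embeds_of_hyperlinear h)
  · exact howieSolvable_of_unitaryQuotient (embeds_of_residuallyFinite h)
  · exact howieSolvable_of_comm fun a b => Subtype.ext (h a a.2 b b.2)
  · exact h

end Vale.Agent.Results.P174.HyperlinearByIndicable
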