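import Vale.Agent.P174.Main
import Vale.Agent.P174.Final
import Vale.Agent.P174.Notions

/-!
Equations over groups with left-orderable coefficients.

* One equation: if `G` is left-ordered and `w ∈ G * F(ι)` is not conjugate to an element of `G`,
  then `G` embeds in `(G * F(ι))/⟨⟨w⟩⟩`.
* If the coefficients lie in a left-ordered subgroup of an arbitrary group `G`, every nonsingular
  single equation is solvable over `G`, and so is every system in which each equation has nonzero
  exponent sum in a private unknown (such a system is nonsingular).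
-/

namespace Vale.Agent.Results.P174.LeftOrderableEquations

open Monoid Vale.Agent.P174

theorem result :
    (∀ (G : Type) [Group G] [LinearOrder G] [MulLeftStrictMono G] (ι : Type)
        (w : Coprod G (FreeGroup ι)), ¬ ConjToCoeff w → EmbedsModulo w) ∧
    (∀ (G : Type) [Group G] (G₀ : Subgroup G) [LinearOrder G₀] [MulLeftStrictMono G₀] (n : ℕ)
        (w : Fin 1 → Coprod G₀ (FreeGroup (Fin n))),
        Nonsingular (overGroup G₀ w) → SolvableOver (overGroup G₀ w)) ∧
    (∀ (G : Type) [Group G] (G₀ : Subgroup G) [LinearOrder G₀] [MulLeftStrictMono G₀] (m n : ℕ)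
        (w : Fin m → Coprod G₀ (FreeGroup (Fin n))),
        PrivateUnknowns w → Nonsingular (overGroup G₀ w) ∧ SolvableOver (overGroup G₀ w)) := by
  have H : OneEquation := fun G _ _ _ ι w hw g hg => not_mem_normalClosure w hw g hg
  refine ⟨?_, ?_, ?_⟩
  · intro G _ _ _ ι w hw
    rw [EmbedsModulo, injective_iff_map_eq_one]
    intro g hg
    by_contra hne
    exact not_mem_normalClosure w (fun u h e => hw ⟨u, h, e⟩) g hne
      ((QuotientGroup.eq_one_iff (Coprod.inl g : Coprod G (FreeGroup ι))).1 hg)
  · intro G _ G₀ _ _ n w hrank
    exact exists_solution_rank_one_coef H G₀ w hrank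
  · rintro G _ G₀ _ _ m n w ⟨p, hp, hw, he⟩
    refine ⟨?_, exists_solution_private_coef H G₀ w p hp hw he⟩
    show ((expMatrix (fun i => changeCoef G₀.subtype (w i))).map (Int.cast : ℤ → ℚ)).rank = m
    rw [expMatrix_changeCoef]
    exact rank_of_private w p hp hw he

end Vale.Agent.Results.P174.LeftOrderableEquations
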